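import Crest.Agent.X262.St91.Defs
import Crest.Agent.X262.Pf19.Defs
import Crest.Agent.X262.Brg.Hyp0
import Crest.Agent.X277.BD.Cyc

/-!
# Row 262, G4 / START (helper81), part 2: from complex points to points in a field

* `Hm Ω Ω'` : partial homomorphisms; `Hm.up`, `Hm.res V`, `spec` : the three examples;
* `uP`, `ux`, `rel`, `sur`, `cv_ne`, `rel_cv` : the fields of `QM` and `Crv` over any field.
-/

set_option autoImplicit false

noncomputable section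

namespace Crest.Agent.X262.StNum

open Crest.Agent.X277 Crest.Agent.X277.BD Crest.Agent.X277.BD.Cyc
open Crest.Agent.X262.St91 MvPolynomial
open Set (range)

variable {Ω Ω' : Type} [Field Ω] [Algebra ℂ Ω] [Field Ω'] [Algebra ℂ Ω']
  {ι κ : Type} {om : Fin 6 → I2 → ℂ}

theorem ln_mul [Fintype κ] (π : ι → κ → ℂ) (c : Ω) (P : κ → Ω) (i : ι) :
    ln π (fun j => c * P j) i = c * ln π P i := by
  simp only [ln, Finset.mul_sum, mul_left_comm]

theorem rel_mul {n : ℕ} {B : Fin n → Fin 4 → I2 → ℂ} {x : Fin 4 → Ω} {P : I2 → Ω}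
    (h : Rel B x P) (c d : Ω) : Rel B (fun i => c * x i) fun j => d * P j := fun a => by
  have := congrArg (c * d * ·) (h a)
  simp only [Finset.mul_sum, mul_zero] at this
  rw [← this]
  exact Finset.sum_congr rfl fun i _ => by rw [ln_mul]; ring

theorem onS_mul {P : I2 → Ω} (h : OnS om P) {c : Ω} (hc : c ≠ 0) : OnS om fun j => c * P j where
  ne h0 := h.ne (funext fun j => (mul_eq_zero.1 (congrFun h0 j)).resolve_left hc)
  skew i j := by rw [h.skew, mul_neg]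
  plk i j k l := by linear_combination c ^ 2 * h.plk i j k l
  lin := funext fun i => by rw [ln_mul, h.lin, Pi.zero_apply, mul_zero]

omit [Algebra ℂ Ω] in
theorem par_eq {x y : ι → Ω} (h : Par x y) (hy : y ≠ 0) : ∃ c, x = fun i => c * y i := by
  obtain ⟨i, hi⟩ := Function.ne_iff.1 hy
  exact ⟨x i / y i, funext fun j => by rw [div_mul_eq_mul_div, eq_div_iff hi, h j i]⟩

/-- a partial homomorphism -/
structure Hm (Ω Ω' : Type) [Field Ω] [Algebra ℂ Ω] [Field Ω'] [Algebra ℂ Ω'] where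
  /-- the domain -/
  A : Subalgebra ℂ Ω
  /-- the map -/
  r : Ω → Ω'
  add : ∀ {x y}, x ∈ A → y ∈ A → r (x + y) = r x + r y
  mul : ∀ {x y}, x ∈ A → y ∈ A → r (x * y) = r x * r y
  alg : ∀ c : ℂ, r (algebraMap ℂ Ω c) = algebraMap ℂ Ω' c

namespace Hm

/-- the structure map -/
def up (Ω : Type) [Field Ω] [Algebra ℂ Ω] : Hm ℂ Ω :=
  ⟨⊤, algebraMap ℂ Ω, fun _ _ => map_add _ _ _, fun _ _ => map_mul _ _ _, fun _ => rfl⟩

/-- the residue map -/
def res (V : RZ ℂ Ω) : Hm Ω (Rf V) :=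
  ⟨{ V.1.toSubring with algebraMap_mem' := V.2 }, (plV V).r, Pl.r_add (p := plV V),
    Pl.r_mul (p := plV V), lnr_plV V⟩

variable (h : Hm Ω Ω')

theorem zero : h.r 0 = 0 := by simpa using h.alg 0

theorem one : h.r 1 = 1 := by simpa using h.alg 1

variable {h}

theorem neg {x : Ω} (hx : x ∈ h.A) : h.r (-x) = -h.r x := by
  rw [eq_neg_iff_add_eq_zero, ← h.add (neg_mem hx) hx, neg_add_cancel, zero]

theorem sub {x y : Ω} (hx : x ∈ h.A) (hy : y ∈ h.A) : h.r (x - y) = h.r x - h.r y := by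
  rw [sub_eq_add_neg, h.add hx (neg_mem hy), neg hy, sub_eq_add_neg]

theorem sum {s : Finset ι} {x : ι → Ω} (hx : ∀ i, x i ∈ h.A) :
    h.r (∑ i ∈ s, x i) = ∑ i ∈ s, h.r (x i) := by
  classical
  induction s using Finset.induction_on with
  | empty => simpa using h.zero
  | insert a s ha ih =>
    rw [Finset.sum_insert ha, Finset.sum_insert ha, h.add (hx a) (sum_mem fun i _ => hx i), ih]

theorem ln_mem [Fintype κ] (π : ι → κ → ℂ) {P : κ → Ω} (hP : ∀ j, P j ∈ h.A) (i : ι) :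
    ln π P i ∈ h.A := sum_mem fun j _ => mul_mem (h.A.algebraMap_mem _) (hP j)

theorem r_ln [Fintype κ] (π : ι → κ → ℂ) {P : κ → Ω} (hP : ∀ j, P j ∈ h.A) :
    (fun i => h.r (ln π P i)) = ln π fun j => h.r (P j) := funext fun i => by
  rw [ln, sum fun j => mul_mem (h.A.algebraMap_mem _) (hP j)]
  exact Finset.sum_congr rfl fun j _ => by rw [h.mul (h.A.algebraMap_mem _) (hP j), h.alg]

theorem r_aeval {y : κ → Ω} (hy : ∀ i, y i ∈ h.A) (q : MvPolynomial κ ℂ) :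
    aeval y q ∈ h.A ∧ h.r (aeval y q) = aeval (fun i => h.r (y i)) q := by
  induction q using MvPolynomial.induction_on with
  | C c => simpa using h.alg c
  | add q q' e e' => rw [map_add, map_add, h.add e.1 e'.1, e.2, e'.2]; exact ⟨add_mem e.1 e'.1, rfl⟩
  | mul_X q i e =>
    rw [map_mul, map_mul, aeval_X, aeval_X, h.mul e.1 (hy i), e.2]
    exact ⟨mul_mem e.1 (hy i), rfl⟩

theorem cv_mem (A : ι → MvPolynomial (Fin 2) ℂ) {t : Fin 2 → Ω} (ht : ∀ j, t j ∈ h.A) (i : ι) :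
    cv A t i ∈ h.A := (r_aeval ht _).1

theorem r_cv (A : ι → MvPolynomial (Fin 2) ℂ) {t : Fin 2 → Ω} (ht : ∀ j, t j ∈ h.A) :
    (fun i => h.r (cv A t i)) = cv A fun j => h.r (t j) := funext fun _ => (r_aeval ht _).2

theorem r_rel {n : ℕ} (B : Fin n → Fin 4 → I2 → ℂ) {x : Fin 4 → Ω} {P : I2 → Ω}
    (hx : ∀ i, x i ∈ h.A) (hP : ∀ j, P j ∈ h.A) (a : Fin n) :
    h.r (∑ i, x i * ln (B a) P i) = ∑ i, h.r (x i) * ln (B a) (fun j => h.r (P j)) i := by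
  rw [sum fun i => mul_mem (hx i) (ln_mem _ hP i), ← r_ln _ hP]
  exact Finset.sum_congr rfl fun i _ => h.mul (hx i) (ln_mem _ hP i)

theorem rel {n : ℕ} {B : Fin n → Fin 4 → I2 → ℂ} {x : Fin 4 → Ω} {P : I2 → Ω}
    (hx : ∀ i, x i ∈ h.A) (hP : ∀ j, P j ∈ h.A) (e : Rel B x P) :
    Rel B (fun i => h.r (x i)) fun j => h.r (P j) := fun a => by
  rw [← r_rel B hx hP, e a, zero]

theorem r_par {x y : ι → Ω} (hx : ∀ i, x i ∈ h.A) (hy : ∀ i, y i ∈ h.A) (i j : ι) :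
    h.r (x i * y j - x j * y i) = h.r (x i) * h.r (y j) - h.r (x j) * h.r (y i) := by
  rw [sub (mul_mem (hx i) (hy j)) (mul_mem (hx j) (hy i)), h.mul (hx i) (hy j), h.mul (hx j) (hy i)]

theorem onS {P : I2 → Ω} (hP : ∀ j, P j ∈ h.A) (e : OnS om P) (h0 : (fun j => h.r (P j)) ≠ 0) :
    OnS om fun j => h.r (P j) where
  ne := h0
  skew i j := by rw [e.skew, neg (hP _)]
  plk i j k l := by
    rw [← h.mul (hP _) (hP _), ← h.mul (hP _) (hP _), ← h.mul (hP _) (hP _),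
      ← sub (mul_mem (hP _) (hP _)) (mul_mem (hP _) (hP _)),
      ← h.add (sub_mem (mul_mem (hP _) (hP _)) (mul_mem (hP _) (hP _))) (mul_mem (hP _) (hP _)),
      e.plk, zero]
  lin := by rw [← r_ln _ hP, e.lin]; exact funext fun _ => h.zero

/-- the family is in the domain and its nonzero members stay nonzero -/
def Ok (h : Hm Ω Ω') (x : ι → Ω) : Prop := (∀ i, x i ∈ h.A) ∧ ∀ i, h.r (x i) = 0 → x i = 0

theorem Ok.ne {x : ι → Ω} (e : h.Ok x) (h0 : x ≠ 0) : (fun i => h.r (x i)) ≠ 0 :=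
  fun h1 => h0 (funext fun i => e.2 i (congrFun h1 i))

theorem Ok.onS {P : I2 → Ω} (e : h.Ok P) (h0 : OnS om P) : OnS om fun j => h.r (P j) :=
  Hm.onS e.1 h0 (e.ne h0.ne)

theorem ok_up (x : ι → ℂ) : (up Ω).Ok x :=
  ⟨fun _ => trivial, fun _ h => (map_eq_zero_iff _ (algebraMap ℂ Ω).injective).1 h⟩

end Hm

/-- **specialisation** to a complex point -/
theorem spec {μ : Type} [Finite ι] [Finite κ] [Finite μ] (x : ι → Ω) (y : κ → Ω) (z : μ → Ω)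
    (w : Ω) : ∃ h : Hm Ω ℂ, h.Ok x ∧ h.Ok y ∧ h.Ok z ∧ (h.r w = 0 → w = 0) := by
  classical
  have hs := (((Set.finite_range x).union (Set.finite_range y)).union (Set.finite_range z)).insert w
  obtain ⟨C, hC, ⟨χ⟩⟩ := Pf19.exists_spec (hs.union (hs.image (·⁻¹)))
  let h : Hm Ω ℂ := ⟨C, fun a => if ha : a ∈ C then χ ⟨a, ha⟩ else 0,
    fun ha hb => by rw [dif_pos ha, dif_pos hb, dif_pos (add_mem ha hb), ← map_add]; rfl,
    fun ha hb => by rw [dif_pos ha, dif_pos hb, dif_pos (mul_mem ha hb), ← map_mul]; rfl,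
    fun c => by rw [dif_pos (C.algebraMap_mem c)]; exact χ.commutes c⟩
  have h1 : ∀ a ∈ insert w (range x ∪ range y ∪ range z), a ∈ h.A ∧ (h.r a = 0 → a = 0) := by
    refine fun a ha => ⟨hC (.inl ha), fun h0 => by_contra fun h2 => ?_⟩
    have h3 := h.mul (hC (.inl ha)) (hC (.inr ⟨a, ha, rfl⟩))
    rw [mul_inv_cancel₀ h2, h.one, h0, zero_mul] at h3
    exact one_ne_zero h3
  exact ⟨h, forall_and.1 fun i => h1 _ (.inr (.inl (.inl ⟨i, rfl⟩))),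
    forall_and.1 fun i => h1 _ (.inr (.inl (.inr ⟨i, rfl⟩))),
    forall_and.1 fun i => h1 _ (.inr (.inr ⟨i, rfl⟩)), (h1 w (.inl rfl)).2⟩

variable {M N : QM om}

theorem uP (M : QM om) {x : Fin 4 → Ω} {P P' : I2 → Ω} (hx : x ≠ 0) (h1 : OnS om P)
    (h2 : OnS om P') (h3 : Rel M.B x P) (h4 : Rel M.B x P') : Par P P' := fun i j => by
  obtain ⟨h, e1, e2, e3, e4⟩ := spec x P P' (P i * P' j - P j * P' i)
  refine sub_eq_zero.1 (e4 ?_)
  rw [Hm.r_par e2.1 e3.1, sub_eq_zero]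
  exact M.uP _ _ _ (e1.ne hx) (e2.onS h1) (e3.onS h2) (Hm.rel e1.1 e2.1 h3)
    (Hm.rel e1.1 e3.1 h4) i j

theorem ux (M : QM om) {x x' : Fin 4 → Ω} {P : I2 → Ω} (h1 : OnS om P) (h3 : Rel M.B x P)
    (h4 : Rel M.B x' P) : Par x x' := fun i j => by
  obtain ⟨h, e1, e2, e3, e4⟩ := spec x x' P (x i * x' j - x j * x' i)
  refine sub_eq_zero.1 (e4 ?_)
  rw [Hm.r_par e1.1 e2.1, sub_eq_zero]
  exact M.ux _ _ _ (e3.onS h1) (Hm.rel e1.1 e3.1 h3) (Hm.rel e2.1 e3.1 h4) i j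

theorem rel (M : QM om) {P : I2 → Ω} (h1 : OnS om P) : Rel M.B (ln M.π P) P := fun a => by
  obtain ⟨h, e1, -, -, e4⟩ := spec P P P (∑ i, ln M.π P i * ln (M.B a) P i)
  refine e4 ?_
  rw [Hm.r_rel _ (Hm.ln_mem _ e1.1) e1.1]
  have h2 := M.rel _ (e1.onS h1) a
  rwa [← Hm.r_ln M.π e1.1] at h2

theorem sur (c : Crv M N) {P : I2 → Ω} (h1 : OnS om P) (h2 : ln M.π P = 0) :
    ∃ t : Fin 2 → Ω, t ≠ 0 ∧ Par P (cv c.A t) := by
  have h3 : ∀ h : Hm Ω ℂ, h.Ok P → ln M.π (fun j => h.r (P j)) = 0 := fun h e => by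
    rw [← Hm.r_ln _ e.1, h2]
    exact funext fun _ => h.zero
  obtain ⟨h, e1, -⟩ := spec P P P 0
  obtain ⟨k, hk⟩ := (c.sur _ (e1.onS h1) (h3 h e1)).1
  refine ⟨ln (c.τ k) P, fun h0 => hk ?_, fun i j => ?_⟩
  · rw [← Hm.r_ln _ e1.1, h0]
    exact funext fun _ => h.zero
  · obtain ⟨h, e1, -, -, e4⟩ := spec P P P
      (P i * cv c.A (ln (c.τ k) P) j - P j * cv c.A (ln (c.τ k) P) i)
    refine sub_eq_zero.1 (e4 ?_)
    have h4 := (c.sur _ (e1.onS h1) (h3 h e1)).2 k i j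
    rw [← Hm.r_ln _ e1.1, ← Hm.r_cv _ (Hm.ln_mem _ e1.1)] at h4
    rwa [Hm.r_par e1.1 (Hm.cv_mem _ (Hm.ln_mem _ e1.1)), sub_eq_zero]

theorem cv_ne {A : ι → MvPolynomial (Fin 2) ℂ} (hA : ∀ t : Fin 2 → ℂ, t ≠ 0 → cv A t ≠ 0)
    {t : Fin 2 → Ω} (ht : t ≠ 0) : cv A t ≠ 0 := fun h0 => by
  obtain ⟨h, e1, -⟩ := spec t t t 0
  refine hA _ (e1.ne ht) ?_
  rw [← Hm.r_cv _ e1.1, h0]
  exact funext fun _ => h.zero

theorem rel_cv {n : ℕ} {B : Fin n → Fin 4 → I2 → ℂ} {X : Fin 4 → MvPolynomial (Fin 2) ℂ}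
    {A : I2 → MvPolynomial (Fin 2) ℂ} (hA : ∀ t : Fin 2 → ℂ, t ≠ 0 → Rel B (cv X t) (cv A t))
    {t : Fin 2 → Ω} (ht : t ≠ 0) : Rel B (cv X t) (cv A t) := fun a => by
  obtain ⟨h, e1, -, -, e4⟩ := spec t t t (∑ i, cv X t i * ln (B a) (cv A t) i)
  refine e4 ?_
  have h2 := hA _ (e1.ne ht) a
  rw [← Hm.r_cv _ e1.1, ← Hm.r_cv _ e1.1] at h2
  rwa [Hm.r_rel _ (Hm.cv_mem _ e1.1) (Hm.cv_mem _ e1.1)]

end Crest.Agent.X262.StNum
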