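import Crest.Agent.X262.StNum81.Deg
import Crest.Agent.X262.StNum81.Tr
import Crest.Agent.X262.Geo.Dv

/-!
# Row 262, G4 / START (helper81), part 3: the intersection numbers

* `mxf_cv` : the class of a curve without base points; `lin_crv` : points of the quartic curve;
* `half`   : the numbers of one model; `numStmt_of` : `St91.NumStmt`.
-/

set_option autoImplicit false
set_option linter.unusedSectionVars false

noncomputable section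

namespace Crest.Agent.X262.StNum

open Crest.Agent.X277 Crest.Agent.X277.BD Crest.Agent.X277.BD.Cyc Crest.Agent.X277.Pst
open Crest.Agent.X277.BD.Br (On oP)
open Crest.Agent.X262.St91 Crest.Agent.X262.Geo Crest.Agent.X262.Lin62 MvPolynomial
open Crest.Agent.X262.Top (Hyp)

variable {F : Type} [Field F] [Algebra ℂ F] {ι : Type} [Fintype ι] {om : Fin 6 → I2 → ℂ}
  {M N : QM om}

/-- normalisation of a family at a valuation ring -/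
theorem exists_nrm {s : ι → F} (hs : s ≠ 0) (V : RZ ℂ F) : ∃ i, s i ≠ 0 ∧
    V.v (s i) = (mxf ℂ s).val V ∧ (∀ j, (s i)⁻¹ * s j ∈ (Hm.res V).A) ∧
      (fun j => (Hm.res V).r ((s i)⁻¹ * s j)) ≠ 0 := by
  obtain ⟨i, hi⟩ := exists_val_mxf (k := ℂ) (Function.ne_iff.1 hs) V
  have h := ne_of_val hi
  refine ⟨i, h, hi, fun j => ?_, fun h0 => ?_⟩
  · rw [inv_mul_eq_div]
    exact (RZ.le_iff h).1 (hi ▸ mem_Sec_mxf s j V)
  · have h1 := congrFun h0 i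
    rw [inv_mul_cancel₀ h, Hm.one] at h1
    exact one_ne_zero h1

theorem lin_par {x y : ι → F} (h : Par x y) (hx : x ≠ 0) (hy : y ≠ 0) :
    Lin (mxf ℂ x) (mxf ℂ y) := by
  obtain ⟨c, rfl⟩ := par_eq h hy
  exact lin_mul (Function.ne_iff.1 hy) fun hc => hx (funext fun i => by simp [hc])

theorem ln_le {κ : Type} [Fintype κ] {π : ι → κ → ℂ} {p : κ → F} (h : ln π p ≠ 0) :
    mxf ℂ (ln π p) ≤ mxf ℂ p := by
  refine mxf_le (Function.ne_iff.1 h) fun i => Submodule.sum_mem _ fun j _ => ?_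
  rw [← Algebra.smul_def]
  exact Submodule.smul_mem _ _ (mem_Sec_mxf p j)

theorem mxf_cv {A : ι → MvPolynomial (Fin 2) ℂ} {d : ℕ} (h : ∀ i, (A i).IsHomogeneous d)
    (hA : ∀ t : Fin 2 → ℂ, t ≠ 0 → cv A t ≠ 0) {t : Fin 2 → F} (ht : t ≠ 0) :
    mxf ℂ (cv A t) = d • mxf ℂ t := by
  have key : ∀ V : RZ ℂ F, ∃ u : Fin 2 → F, (∀ j, u j ∈ (Hm.res V).A) ∧
      (fun j => (Hm.res V).r (u j)) ≠ 0 ∧
      ∀ i, V.v (cv A t i) = (d • mxf ℂ t).val V * V.v (cv A u i) := fun V => by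
    obtain ⟨a, h0, h1, h2, h3⟩ := exists_nrm ht V
    refine ⟨_, h2, h3, fun i => ?_⟩
    have h4 : cv A (fun j => (t a)⁻¹ * t j) i = _ := Brg.Hyp0.aeval_smul (h i) (t a)⁻¹ t
    rw [h4, val_nsmul, ← h1, ← map_pow, ← map_mul, ← mul_assoc, ← mul_pow, mul_inv_cancel₀ h0,
      one_pow, one_mul]
    rfl
  refine (eq_mxf (fun i V => ?_) fun V => ?_).symm
  · obtain ⟨u, h1, -, h2⟩ := key V
    rw [h2]
    exact mul_le_of_le_one_right' (RZ.le_one_iff.2 (Hm.cv_mem A h1 i))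
  · obtain ⟨u, h1, h3, h2⟩ := key V
    have h4 := cv_ne hA h3
    rw [← Hm.r_cv A h1] at h4
    obtain ⟨i, hi⟩ := Function.ne_iff.1 h4
    have h5 : V.v (cv A u i) = 1 := (Pl.r_ne_zero_iff (p := plV V)).1 hi
    exact ⟨i, by rw [h2, h5, mul_one]⟩

/-- points of the quartic curve -/
theorem lin_crv (c : Crv M N) {p : I2 → F} {y y' : Fin 4 → F} (hp : OnS om p) (hy : y ≠ 0)
    (hy' : y' ≠ 0) (h1 : Rel M.B y p) (h2 : Rel N.B y' p) (h0 : ln M.π p = 0) :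
    ∃ a : BD ℂ F, Lin (mxf ℂ p) (4 • a) ∧ Lin (mxf ℂ y) (6 • a) ∧ Lin (mxf ℂ y') (2 • a) := by
  obtain ⟨t, ht, h3⟩ := sur c hp h0
  have hA : ∀ t : Fin 2 → ℂ, t ≠ 0 → cv c.A t ≠ 0 := fun t h => (c.on t h).1.ne
  have hX : ∀ t : Fin 2 → ℂ, t ≠ 0 → cv c.X t ≠ 0 := fun t h => (c.on t h).2.1
  have hY : ∀ t : Fin 2 → ℂ, t ≠ 0 → cv c.Y t ≠ 0 := fun t h => (c.on t h).2.2.1
  refine ⟨mxf ℂ t, mxf_cv c.hA hA ht ▸ lin_par h3 hp.ne (cv_ne hA ht), ?_, ?_⟩ <;>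
    obtain ⟨e, rfl⟩ := par_eq h3 (cv_ne hA ht)
  · refine mxf_cv c.hX hX ht ▸ lin_par (ux M hp h1 ?_) hy (cv_ne hX ht)
    simpa using rel_mul (rel_cv (fun t h => (c.on t h).2.2.2.1) ht) 1 e
  · refine mxf_cv c.hY hY ht ▸ lin_par (ux N hp h2 ?_) hy' (cv_ne hY ht)
    simpa using rel_mul (rel_cv (fun t h => (c.on t h).2.2.2.2.1) ht) 1 e

/-- some valuation ring is centred on the curve -/
theorem exists_ctr (c : Crv M N) (S : Hyp 3 M.Γ F) {p : I2 → F} (hp : OnS om p)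
    (h1 : Rel M.B S.y p) : ∃ V : RZ ℂ F, ∀ i, V.v (ln M.π p i) < (mxf ℂ p).val V := by
  obtain ⟨h2, h3, -, h4, -, h5, h6⟩ := c.on ![1, 0] fun h => one_ne_zero (congrFun h 0)
  obtain ⟨a, ha⟩ := Function.ne_iff.1 h3
  set x := cv c.X (![1, 0] : Fin 2 → ℂ)
  have hk := Brg.Hyp0.GP.ker (G := M.Γ) S.ker M.qt.1 (S.y_ne a)
  have := RingHom.ker_isPrime (aeval (R := ℂ) ((x a)⁻¹ • x))
  obtain ⟨V0, h7, h8⟩ := Cns.exists_val (aeval (R := ℂ) ((S.y a)⁻¹ • S.y)).toRingHom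
    (RingHom.ker (aeval (R := ℂ) ((x a)⁻¹ • x))) fun q hq => by
      have h : q ∈ RingHom.ker (Brg.Hyp0.pres ℂ S.y a) :=
        Subtype.ext ((Brg.Hyp0.coe_pres a q).trans hq)
      rw [hk] at h
      refine Ideal.span_le.2 ?_ h
      rintro _ (rfl | rfl)
      · rw [SetLike.mem_coe, RingHom.mem_ker, Brg.Hyp0.aeval_smul M.qt.1]
        exact mul_eq_zero_of_right _ h6
      · simpa [RingHom.mem_ker, sub_eq_zero] using inv_mul_cancel₀ ha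
  let V : RZ ℂ F := ⟨V0, fun a => by simpa using h7 (C a)⟩
  have h9 : ∀ j, (S.y a)⁻¹ * S.y j ∈ (Hm.res V).A := fun j =>
    show _ ∈ V0 by simpa using h7 (X j)
  have h10 : (fun j => (Hm.res V).r ((S.y a)⁻¹ * S.y j)) =
      fun j => (Hm.up (Rf V)).r ((x a)⁻¹ * x j) := funext fun j => by
    have h := (h8 (X j - C ((x a)⁻¹ * x j))).not.2 (by simp [RingHom.mem_ker])
    rw [Cns.un_iff_val] at h
    have h' := not_not.1 ((Pl.r_ne_zero_iff (p := plV V)).not.2 h)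
    refine sub_eq_zero.1 (Eq.trans ?_ h')
    rw [show (aeval (R := ℂ) ((S.y a)⁻¹ • S.y)).toRingHom (X j - C ((x a)⁻¹ * x j)) =
      (S.y a)⁻¹ * S.y j - algebraMap ℂ F ((x a)⁻¹ * x j) by simp]
    exact ((Hm.sub (h9 j) ((Hm.res V).A.algebraMap_mem _)).trans (by rw [Hm.alg]; rfl)).symm
  obtain ⟨b, hb, e1, e2, e3⟩ := exists_nrm hp.ne V
  have e4 := Hm.rel h9 e2 (rel_mul h1 _ _)
  rw [h10] at e4
  have e5 := (Hm.ok_up (Ω := Rf V) _).onS h2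
  obtain ⟨e, e6⟩ := par_eq (uP M ((Hm.ok_up fun j => (x a)⁻¹ * x j).ne fun h =>
    one_ne_zero ((inv_mul_cancel₀ ha).symm.trans (congrFun h a)))
    (Hm.onS e2 (onS_mul hp (inv_ne_zero hb)) e3) e5 e4
    (Hm.rel (Hm.ok_up _).1 (Hm.ok_up _).1 (by simpa using rel_mul h4 (x a)⁻¹ 1))) e5.ne
  refine ⟨V, fun i => ?_⟩
  have e7 := congrFun (Hm.r_ln M.π e2) i
  rw [e6, ln_mul M.π e, ← Hm.r_ln M.π (Hm.ok_up _).1, h5] at e7
  have e8 : V.v (ln M.π (fun j => (p b)⁻¹ * p j) i) < 1 :=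
    (Pl.r_eq_zero (p := plV V) (Hm.ln_mem M.π e2 i)).1
      (e7.trans (mul_eq_zero_of_right e (Hm.up (Rf V)).zero))
  rw [ln_mul, inv_mul_eq_div, map_div₀] at e8
  exact e1 ▸ (div_lt_one₀ (RZ.pos hb)).1 e8

variable [Algebra.EssFiniteType ℂ F]

theorem dg_mxf {V : RZ ℂ F} (hV : Dvs V) {s : ι → F} {i : ι} (hi : s i ≠ 0)
    (h : ∀ j, (s i)⁻¹ * s j ∈ (Hm.res V).A) {a : BD ℂ (Rf V)} {m : ℕ}
    (e : Lin (mxf ℂ fun j => (Hm.res V).r ((s i)⁻¹ * s j)) (m • a)) :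
    dg V [mxf ℂ s] = m * (have := essFT_Rf hV; bnum [a]) := by
  have := essFT_Rf hV
  simp only [inv_mul_eq_div] at h e
  have h1 := dg_rep hV hi h (AlgHom.id ℂ (Rf V)) (u := fun j => (plV V).r (s j / s i))
    (fun _ => rfl) 1
  rw [deg_id, Nat.cast_one, one_mul] at h1
  exact h1.trans ((e.bnum_eq []).trans (bnum_nsmul m a []))

/-- degrees on a divisor centred on the curve -/
theorem dg_crv (c : Crv M N) {p : I2 → F} {y y' : Fin 4 → F} (hp : OnS om p) (hy : y ≠ 0)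
    (hy' : y' ≠ 0) (h1 : Rel M.B y p) (h2 : Rel N.B y' p) {V : RZ ℂ F} (hV : Dvs V)
    (h : ∀ i, V.v (ln M.π p i) < (mxf ℂ p).val V) : ∃ n : ℤ, dg V [mxf ℂ p] = 4 * n ∧
      dg V [mxf ℂ y] = 6 * n ∧ dg V [mxf ℂ y'] = 2 * n := by
  obtain ⟨b, hb, e1, e2, e3⟩ := exists_nrm hp.ne V
  obtain ⟨a, ha, -, e4, e5⟩ := exists_nrm hy V
  obtain ⟨a', ha', -, e6, e7⟩ := exists_nrm hy' V
  obtain ⟨u, u1, u2, u3⟩ := lin_crv c (Hm.onS e2 (onS_mul hp (inv_ne_zero hb)) e3) e5 e7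
    (Hm.rel e4 e2 (rel_mul h1 _ _)) (Hm.rel e6 e2 (rel_mul h2 _ _)) (by
      rw [← Hm.r_ln M.π e2]
      refine funext fun i => (Pl.r_eq_zero (p := plV V) (Hm.ln_mem M.π e2 i)).2 ?_
      change V.v _ < 1
      rw [ln_mul, inv_mul_eq_div, map_div₀]
      exact (div_lt_one₀ (RZ.pos hb)).2 (e1 ▸ h i))
  exact ⟨_, dg_mxf hV hb e2 u1, dg_mxf hV ha e4 u2, dg_mxf hV ha' e6 u3⟩

theorem cnt {r f q q' : BD ℂ F} (h : ∀ V, Dvs V → od V r ≠ 0 → ∃ n : ℤ, dg V [f] = 4 * n ∧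
    dg V [q] = 6 * n ∧ dg V [q'] = 2 * n) :
    ∃ e : ℤ, bnum [r, f] = 4 * e ∧ bnum [r, q] = 6 * e ∧ bnum [r, q'] = 2 * e := by
  have h9 : bnum [r, f - 2 • q'] = 0 := bnum_eq_zero fun V hV h0 => by
    obtain ⟨n, e1, -, e3⟩ := h V hV h0
    rw [dg_sub, dg_nsmul, e1, e3]
    push_cast
    ring
  have h10 : bnum [r, q - 3 • q'] = 0 := bnum_eq_zero fun V hV h0 => by
    obtain ⟨n, -, e2, e3⟩ := h V hV h0
    rw [dg_sub, dg_nsmul, e2, e3]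
    push_cast
    ring
  obtain ⟨e, he⟩ : 2 ∣ bnum [r, q'] := by
    obtain ⟨T, -, e1, e2, e3⟩ := exists_cyc r [q'] ∅ (by simp)
    rw [e3]
    refine Finset.dvd_sum fun V hV => ?_
    obtain ⟨n, -, -, e4⟩ := h V (e1 V hV) (e2 V hV (by simp))
    exact Dvd.dvd.mul_left ⟨n, e4⟩ _
  rw [bnum_sub2, bnum_nsmul2] at h9 h10
  push_cast at h9 h10
  exact ⟨e, by omega, by omega, he⟩

theorem pos_On {P : Lef.PModel ℂ F} (hd : dim ℂ F = 2) {a b : BD ℂ F} (ha : a ∈ On P)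
    (hb : b ∈ On P) (h : a ≤ b) (h1 : b - a ≠ 0) : 0 < bnum [b - a, oP P] := by
  by_contra hc
  have h0 := sub_nonneg.2 h
  refine h1 (eq_On (sub_mem hb ha) (zero_mem _) fun V hV => ?_)
  have e2 := od_mul_le (l := [oP P]) h0 (by simpa using Br.free_oP.nef) hV.dvs
  have e3 : 0 < dg V [oP P] := dg_pos (isMod_oP P) hV (d := 1) hd
  rw [map_zero]
  by_contra e5
  exact hc ((mul_pos (lt_of_le_of_ne (od_nonneg h0) (Ne.symm e5)) e3).trans_le e2)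

/-- the numbers of one model -/
theorem half (c : Crv M N) (S : Hyp 3 M.Γ F) {p : I2 → F} {y' : Fin 4 → F} (hp : OnS om p)
    (hy' : y' ≠ 0) (h1 : Rel M.B S.y p) (h2 : Rel N.B y' p) (hd : dim ℂ F = 2)
    (h4 : bnum [oP S.P, oP S.P] = 4) (hf : mxf ℂ p ∈ On S.P) : ∃ e : ℤ, 0 < e ∧
      bnum [mxf ℂ p - oP S.P, mxf ℂ p] = 4 * e ∧ bnum [mxf ℂ p - oP S.P, oP S.P] = 6 * e ∧
      bnum [mxf ℂ p - oP S.P, mxf ℂ y'] = 2 * e := by
  have hy : S.y ≠ 0 := fun h => S.y_ne 0 (congrFun h 0)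
  have hq : oP S.P = mxf ℂ S.y := rfl
  have h0 : ln M.π p ≠ 0 := fun h0 => by
    obtain ⟨a, -, h5, -⟩ := lin_crv c hp hy hy' h1 h2 h0
    rw [hq, h5.bnum_eq, bnum_nsmul, bnum_swap, h5.bnum_eq, bnum_nsmul] at h4
    omega
  have h5 : Lin (mxf ℂ (ln M.π p)) (oP S.P) := hq ▸ lin_par (ux M hp (rel M hp) h1) h0 hy
  have h6 : mxf ℂ (ln M.π p) ≤ mxf ℂ p := ln_le h0
  have h7 : ∀ l, bnum ((mxf ℂ p - oP S.P) :: l) = bnum ((mxf ℂ p - mxf ℂ (ln M.π p)) :: l) :=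
    fun l => by rw [bnum_sub, bnum_sub, h5.bnum_eq]
  obtain ⟨e, e1, e2, e3⟩ := cnt (r := mxf ℂ p - mxf ℂ (ln M.π p)) fun V hV h =>
    dg_crv c hp hy hy' h1 h2 hV fun i => (mem_Sec_mxf (k := ℂ) (ln M.π p) i V).trans_lt
      (lt_of_le_of_ne (h6 V) fun e => h (by
        rw [od_eq_zero hV, val_sub, e]
        exact div_self (val_ne _ _)))
  have h8 : mxf ℂ p - mxf ℂ (ln M.π p) ≠ 0 := fun e0 => by
    obtain ⟨V, hV⟩ := exists_ctr c S hp h1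
    obtain ⟨i, hi⟩ := exists_val_mxf (k := ℂ) (Function.ne_iff.1 h0) V
    exact (hV i).ne (hi.trans (congrArg (fun a => BD.val a V) (sub_eq_zero.1 e0).symm))
  have h11 := pos_On hd (Lin.mem_On h5 Br.oP_mem) hf h6 h8
  rw [hq, e2] at h11
  exact ⟨e, by omega, (h7 _).trans e1, (h7 _).trans e2, (h7 _).trans e3⟩

/-- **NUM** -/
theorem numStmt_of (hO : OnStmt) (hD : DegStmt) : NumStmt := by
  intro om G F _ _ _ Z
  obtain ⟨h1, h2, -⟩ := hO om G F Z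
  obtain ⟨hd, h3⟩ := hD _ F Z.S G.M.qt
  obtain ⟨-, h4⟩ := hD _ F Z.T G.N.qt
  obtain ⟨e, he, a1, a2, a3⟩ := half G.a Z.S Z.on (fun h => Z.T.y_ne 0 (congrFun h 0)) Z.relS
    Z.relT hd h3 h1
  obtain ⟨e', -, b1, b2, b3⟩ := half G.b Z.T Z.on (fun h => Z.S.y_ne 0 (congrFun h 0)) Z.relT
    Z.relS hd h4 h2
  change bnum [_, oP Z.T.P] = _ at a3
  change bnum [_, oP Z.S.P] = _ at b3
  rw [bnum_sub] at a1 a2 a3 b1 b2 b3
  rw [bnum_swap (oP _)] at a1 b1 b3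
  exact ⟨e, he, by omega, by omega, by omega, by omega⟩

theorem numStmt (hO : OnStmt) : NumStmt := numStmt_of hO degStmt

end Crest.Agent.X262.StNum
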