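import Crest.Agent.X262.St91.Defs
import Crest.Agent.X262.Lin62.Bez

/-!
# Row 262, G4 / START (helper81), part 1: the degree of a quartic surface

* `mxf_mul`  : rescaling of a family; `pn_eq` : the degree of projective space;
* `degStmt`  : `St91.DegStmt`.
-/

set_option autoImplicit false
set_option linter.unusedSectionVars false

noncomputable section

namespace Crest.Agent.X262.StNum

open Crest.Agent.X277 Crest.Agent.X277.BD Crest.Agent.X277.Pst
open Crest.Agent.X277.BD.Br (On oP)
open Crest.Agent.X262.Lin62 MvPolynomial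
open Crest.Agent.X262.Top (Hyp)
open Crest.Agent.X262.Mv99 (Qt)
open Crest.Agent.X262.Brg.Cubic (deh hom hom_isHomogeneous deh_hom)
open List (replicate)
open IntermediateField (adjoin)
open Set (range)

section Gen

variable {k F : Type} [Field k] [Field F] [Algebra k F]

theorem mxf_mul {ι : Type} [Fintype ι] {s : ι → F} (h0 : ∃ i, s i ≠ 0) {c : F} (hc : c ≠ 0) :
    (mxf k fun i => c * s i) = mxf k s + pr k c := by
  refine (eq_mxf (fun i V => ?_) fun V => ?_).symm
  · rw [val_add, val_pr hc, map_mul, mul_comm]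
    exact mul_le_mul_left (mem_Sec_mxf s i V) _
  · obtain ⟨i, hi⟩ := exists_val_mxf (k := k) h0 V
    exact ⟨i, by rw [val_add, val_pr hc, map_mul, mul_comm, hi]⟩

theorem lin_mul {ι : Type} [Fintype ι] {s : ι → F} (h0 : ∃ i, s i ≠ 0) {c : F} (hc : c ≠ 0) :
    Lin (mxf k fun i => c * s i) (mxf k s) := ⟨c, hc, mxf_mul h0 hc⟩

variable [CharZero k] [Algebra.EssFiniteType k F]

theorem le_dim {n : ℕ} {t : Fin n → F} (h : AlgebraicIndependent k t) : n ≤ dim k F := by
  have h1 := h.cardinalMk_le_trdeg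
  rw [trdeg_eq_dim, Cardinal.mk_fin] at h1
  exact_mod_cast h1

theorem pn_eq {n : ℕ} {t : Fin n → F} (h : adjoin k (range t) = ⊤) (hd : dim k F = n) :
    bnum (replicate n (mx1 k t)) = 1 := by
  have h1 : (mx1 k t).sf = ⊤ := by
    rw [eq_top_iff, ← h, IntermediateField.adjoin_le_iff]
    rintro _ ⟨i, rfl⟩
    simpa using div_mem_sf (mem_mx1 (k := k) t i) (nonneg_iff.1 (mx1_nonneg t))
  have h2 : Big (mx1 k t) := (va_of_alg (free_mx1 t) (by rw [h1]; infer_instance)).big
  refine le_antisymm (pn n h) (bnum_pos (by simp [hd]) fun x hx => ?_)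
  rw [List.eq_of_mem_replicate hx]
  exact ⟨(free_mx1 t).nef, h2⟩

theorem sq_mono {a b : BD k F} (h : a ≤ b) (ha : Nef a) (hb : Nef b) :
    bnum [a, a] ≤ bnum [b, b] := by
  have h0 := psef_of_nonneg (sub_nonneg.2 h)
  have h1 := h0.bnum_nonneg (l := [a]) (by simpa using ha)
  have h2 := h0.bnum_nonneg (l := [b]) (by simpa using hb)
  rw [bnum_sub] at h1 h2
  rw [bnum_swap b a] at h1
  omega

end Gen

/-- polynomials in the last variable -/
def psi : MvPolynomial (Fin 3) ℂ →ₐ[ℂ] Polynomial (MvPolynomial (Fin 2) ℂ) :=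
  aeval ![Polynomial.C (X 0), Polynomial.C (X 1), Polynomial.X]

theorem psi_surj : Function.Surjective psi := fun P => by
  induction P using Polynomial.induction_on with
  | C r =>
    refine ⟨rename Fin.castSucc r, ?_⟩
    have h : psi.comp (rename Fin.castSucc) = Polynomial.CAlgHom := by
      ext1 i
      fin_cases i <;> simp [psi]
    exact DFunLike.congr_fun h r
  | add p q hp hq =>
    obtain ⟨a, rfl⟩ := hp
    obtain ⟨b, rfl⟩ := hq
    exact ⟨a + b, map_add _ _ _⟩
  | monomial n a ih =>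
    obtain ⟨q, hq⟩ := ih
    exact ⟨q * X 2, by rw [map_mul, hq, pow_succ, mul_assoc]; simp [psi]⟩

theorem four_le {Γ : MvPolynomial (Fin 4) ℂ} (hΓ : Qt Γ) : 4 ≤ (psi (deh Γ)).natDegree := by
  refine le_trans (Polynomial.le_natDegree_of_ne_zero ?_)
    (Polynomial.natDegree_map_le (f := (constantCoeff : MvPolynomial (Fin 2) ℂ →+* ℂ)))
  have h : ((Polynomial.mapAlgHom (aeval (0 : Fin 2 → ℂ))).comp psi).comp deh =
      aeval (![1, 0, 0, Polynomial.X] : Fin 4 → Polynomial ℂ) := by
    have h0 : (Fin.cons 1 X : Fin 4 → MvPolynomial (Fin 3) ℂ) = ![1, X 0, X 1, X 2] := by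
      funext i
      fin_cases i <;> rfl
    ext1 i
    fin_cases i <;> simp [psi, deh, h0]
  have h1 : (psi (deh Γ)).map constantCoeff =
      aeval (![1, 0, 0, Polynomial.X] : Fin 4 → Polynomial ℂ) Γ := by
    rw [← h]
    simp [Polynomial.mapAlgHom]
  rw [h1, aeval_def, eval₂_eq', Polynomial.finsetSum_coeff,
    Finset.sum_eq_single_of_mem (Finsupp.single 3 4) (mem_support_iff.2 hΓ.2.1)]
  · simpa [Fin.prod_univ_four] using hΓ.2.1
  · intro d hd h2
    have h3 := hΓ.1 (mem_support_iff.1 hd)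
    rw [Finsupp.weight_apply, Finsupp.sum_fintype _ _ (by simp)] at h3
    simp only [Fin.sum_univ_four, Pi.one_apply, smul_eq_mul, mul_one] at h3
    by_cases h4 : d 3 = 4
    · exact (h2 (Finsupp.ext fun i => by fin_cases i <;> simp <;> omega)).elim
    · by_cases h5 : d 1 = 0 <;> by_cases h6 : d 2 = 0 <;>
        simp [Fin.prod_univ_four, h5, h6, Polynomial.coeff_X_pow, Ne.symm h4]

/-- **DEG** -/
theorem degStmt : St91.DegStmt := by
  intro Γ F _ _ _ S hΓ
  let t : Fin 3 → F := fun i => S.y i.succ / S.y 0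
  have e : (Fin.cons 1 t : Fin 4 → F) = (S.y 0)⁻¹ • S.y := by
    funext i
    refine Fin.cases ?_ (fun i => ?_) i
    · simp [S.y_ne 0]
    · simp [t, div_eq_inv_mul]
  have hk : ∀ p, aeval t p = 0 → deh Γ ∣ p := fun p hp => by
    have h1 := hom_isHomogeneous p.totalDegree p
    rw [← deh_hom (le_refl p.totalDegree), ← Brg.Hyp0.aeval_cons, e,
      Brg.Hyp0.aeval_smul h1, mul_eq_zero] at hp
    rw [← deh_hom (le_refl p.totalDegree)]
    exact map_dvd _ ((S.ker _ _ h1).1 (hp.resolve_left (pow_ne_zero _ (inv_ne_zero (S.y_ne 0)))))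
  have h0 : aeval t (deh Γ) = 0 := by
    rw [← Brg.Hyp0.aeval_cons, e, Brg.Hyp0.aeval_smul hΓ.1, (S.ker _ _ hΓ.1).2 dvd_rfl, mul_zero]
  have ht : adjoin ℂ (range t) = ⊤ := by
    have h1 : ∀ a ∈ Lef.chart ℂ S.y 0, a ∈ adjoin ℂ (range t) := by
      intro a ha
      refine (Algebra.adjoin_le (S := (adjoin ℂ (range t)).toSubalgebra) ?_) ha
      rintro _ ⟨i, rfl⟩
      refine Fin.cases ?_ (fun i => ?_) i
      · simp [S.y_ne 0]
      · exact IntermediateField.subset_adjoin _ _ ⟨i, rfl⟩
    rw [eq_top_iff]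
    rintro f -
    obtain ⟨a, ha, c, hc, -, rfl⟩ := S.frac f
    exact div_mem (h1 a ha) (h1 c hc)
  have h4 := four_le hΓ
  have hb := bez1 ht (c := deh Γ) (by rintro h; simp [h] at h4) h0
    ((Brg.Cubic.totalDegree_deh Γ).trans hΓ.1.totalDegree_le)
  let R := MvPolynomial (Fin 2) ℂ
  let u : Fin 2 → F := fun i => t i.castSucc
  let _ : Algebra R F := (aeval (R := ℂ) u).toRingHom.toAlgebra
  have : IsScalarTower ℂ R F :=
    IsScalarTower.of_algebraMap_eq fun c => ((aeval (R := ℂ) u).commutes c).symm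
  have hP : ∀ P : Polynomial R, P.natDegree < 4 → Polynomial.aeval (t 2) P = 0 → P = 0 := by
    intro P h1 h2
    obtain ⟨p, rfl⟩ := psi_surj P
    have h : ((Polynomial.aeval (R := R) (t 2)).restrictScalars ℂ).comp psi = aeval t := by
      ext1 i
      fin_cases i <;> simp [psi, RingHom.algebraMap_toAlgebra, u, R]
    exact Polynomial.eq_zero_of_dvd_of_natDegree_lt
      (map_dvd _ (hk p ((DFunLike.congr_fun h p).symm.trans h2))) (h1.trans_le h4)
  have hu : AlgebraicIndependent ℂ u := algebraicIndependent_iff.2 fun r hr =>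
    Polynomial.C_eq_zero.1 (hP (Polynomial.C r) (by simp) (by rwa [Polynomial.aeval_C]))
  have hd : dim ℂ F = 2 := by
    have := le_dim hu
    omega
  refine ⟨hd, ?_⟩
  have h5 : Lin (mx1 ℂ t) (oP S.P) := by
    rw [mx1, e]
    exact lin_mul ⟨0, S.y_ne 0⟩ (inv_ne_zero (S.y_ne 0))
  have h6 := Loc.bnum_rep_lin h5 2 []
  have h7 := hb.2 (by omega)
  rw [hd] at h7
  refine h6.symm.trans (le_antisymm h7 ?_)
  have : FaithfulSMul R F := (faithfulSMul_iff_algebraMap_injective _ _).2 hu
  let K := FractionRing R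
  let _ : Algebra K F := FractionRing.liftAlgebra R F
  have : IsScalarTower ℂ K F := IsScalarTower.of_algebraMap_eq fun c => by
    rw [IsScalarTower.algebraMap_apply ℂ R K, ← IsScalarTower.algebraMap_apply R K F,
      ← IsScalarTower.algebraMap_apply]
  let s : Fin 2 → K := fun i => algebraMap R K (X i)
  have hs : adjoin ℂ (range s) = ⊤ :=
    Brg.Hyp0.adjoin_top_of_frac X fun q => ⟨q, aeval_X_left_apply q⟩
  have := eft_of_top hs
  let α := IsScalarTower.toAlgHom ℂ K F
  have hα : ∀ i, α (s i) = u i := fun i =>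
    (IsScalarTower.algebraMap_apply R K F (X i)).symm.trans (aeval_X u i)
  have hK : dim ℂ K = 2 := le_antisymm (by simpa using dim_le_card hs)
    (le_dim (t := s) (AlgebraicIndependent.of_comp α (by
      rw [show α ∘ s = u from funext hα]; exact hu)))
  have h8 : 4 ≤ deg α := by
    have h9 : 0 < deg α := (deg_pos_iff α).2 (hd.trans hK.symm)
    rw [deg_tower] at h9 ⊢
    have := Module.finite_of_finrank_pos h9
    have h10 : LinearIndependent R fun j : Fin 4 => t 2 ^ (j : ℕ) := by
      refine Fintype.linearIndependent_iff.2 fun c hc j => ?_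
      simp_rw [Algebra.smul_def, ← Polynomial.aeval_monomial, ← map_sum] at hc
      have h11 := congrArg (Polynomial.lcoeff R j) (hP _ (Nat.lt_succ_of_le
        (Polynomial.natDegree_sum_le_of_forall_le _ _ fun i _ =>
          (Polynomial.natDegree_monomial_le _).trans (Nat.le_of_lt_succ i.2))) hc)
      simpa [Polynomial.coeff_monomial, Fin.val_eq_val] using h11
    simpa using ((LinearIndependent.iff_fractionRing R K).1 h10).fintype_card_le_finrank
  have h9 := bnum_pb α (replicate 2 (mx1 ℂ s))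
  rw [pn_eq hs hK, mul_one, List.map_replicate, pb_mx1, funext hα] at h9
  refine le_trans ?_ (sq_mono (a := mx1 ℂ u) (mxf_le ⟨0, one_ne_zero⟩ (Fin.cases
    (mem_Sec_mxf (Fin.cons 1 t : Fin 4 → F) 0) fun i => mem_mx1 t _)) (free_mx1 u).nef
    (free_mx1 t).nef)
  exact le_trans (by exact_mod_cast h8) h9.ge

end Crest.Agent.X262.StNum
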